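import Mathlib.Topology.Compactification.OnePoint.ProjectiveLine
import Mathlib.Analysis.Complex.Basic
import Mathlib.Analysis.Analytic.Basic

open Set Topology OnePoint Filter

namespace Vale.Agent.P116

/-- The reciprocal `z ↦ 1/z` on the Riemann sphere, exchanging `0` and `∞`. -/
noncomputable def recip (p : OnePoint ℂ) : OnePoint ℂ :=
  p.elim ((0 : ℂ) : OnePoint ℂ) (fun z => if z = 0 then ∞ else ((z⁻¹ : ℂ) : OnePoint ℂ))

/-- The two standard coordinate parametrizations of the sphere, `z ↦ z` and `z ↦ 1/z`. -/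
noncomputable def charts : Set (ℂ → OnePoint ℂ) :=
  {fun z : ℂ => (z : OnePoint ℂ), fun z : ℂ => recip (z : OnePoint ℂ)}

/-- `f` is holomorphic at `p` when read in the standard charts. -/
def HolAt (f : OnePoint ℂ → OnePoint ℂ) (p : OnePoint ℂ) : Prop :=
  ∃ φ ∈ charts, ∃ ψ ∈ charts, ∃ (a : ℂ) (g : ℂ → ℂ),
    φ a = p ∧ AnalyticAt ℂ g a ∧ ∀ᶠ z in 𝓝 a, f (φ z) = ψ (g z)

/-- A domain: a nonempty connected open subset of the sphere. -/
def IsDom (G : Set (OnePoint ℂ)) : Prop := IsOpen G ∧ IsConnected G

/-- The complementary component of `G` containing the point `p` of the complement. -/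
def comp (G : Set (OnePoint ℂ)) (p : OnePoint ℂ) : Set (OnePoint ℂ) :=
  connectedComponentIn Gᶜ p

/-- Closed round disks: Moebius images of the closed unit disk. -/
def IsRoundDisk (D : Set (OnePoint ℂ)) : Prop :=
  ∃ m : GL (Fin 2) ℂ,
    D = (fun p => m • p) '' ((fun z : ℂ => (z : OnePoint ℂ)) '' Metric.closedBall 0 1)

/-- Circle domains: every complementary component is a point or a closed round disk. -/
def IsCircleDomain (G : Set (OnePoint ℂ)) : Prop :=
  IsDom G ∧ ∀ p ∈ Gᶜ, comp G p = {p} ∨ IsRoundDisk (comp G p)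

/-- Conformal equivalence: a bijection that is holomorphic in the standard charts. -/
def ConfEquiv (G H : Set (OnePoint ℂ)) : Prop :=
  ∃ f : OnePoint ℂ → OnePoint ℂ, BijOn f G H ∧ ∀ p ∈ G, HolAt f p

/-- `G` is conformally equivalent to a circle domain. -/
def IsKoebe (G : Set (OnePoint ℂ)) : Prop :=
  ∃ H, IsCircleDomain H ∧ ConfEquiv G H

/-- The union of the nondegenerate (more than one point) complementary components. -/
def nondeg (G : Set (OnePoint ℂ)) : Set (OnePoint ℂ) :=
  {p ∈ Gᶜ | (comp G p).Nontrivial}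

/-- The complement of the closure of the union of the nondegenerate components. -/
def fillDom (G : Set (OnePoint ℂ)) : Set (OnePoint ℂ) := (closure (nondeg G))ᶜ

end Vale.Agent.P116
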